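import Vale.Agent.P281.H22.TS.Xfer
import Vale.Agent.P281.H603.TE.FibE

/-!
# P281, project T-S (helper22), block G3: a compact, simply connected `F → f⁻¹(y)` is the universal
covering of the fibre
-/

open Set Filter Metric Vale.Agent.P281 Vale.Agent.P272.K
open scoped Topology ContDiff Manifold ComplexConjugate ComplexOrder

set_option linter.unusedSectionVars false

noncomputable section

namespace Vale.Agent.P281.H22.TS

open Vale.Agent.P281.H64.TK Vale.Agent.P281.H64.TK.TS Vale.Agent.P281.H603.K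
open Vale.Agent.P281.H125.Fib Vale.Agent.P281.H969.K.FibN Vale.Agent.P281.H603.TE

attribute [local instance] ccs'

/-! ### Two universal coverings of the same space -/

theorem exists_homeo {E F B : Type} [TopologicalSpace E] [TopologicalSpace F] [TopologicalSpace B]
    [SimplyConnectedSpace E] [LocallyPathConnectedSpace E] [SimplyConnectedSpace F]
    [LocallyPathConnectedSpace F] {c : E → B} {c' : F → B} (hc : IsCoveringMap c)
    (hc' : IsCoveringMap c') {e₀ : E} {x₀ : F} (h : c' x₀ = c e₀) :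
    ∃ τ : E ≃ₜ F, ∀ e, c' (τ e) = c e := by
  obtain ⟨π, ⟨h1, h2⟩, -⟩ := hc'.existsUnique_continuousMap_lifts ⟨c, hc.continuous⟩ e₀ x₀ h
  obtain ⟨ρ, ⟨h3, h4⟩, -⟩ := hc.existsUnique_continuousMap_lifts ⟨c', hc'.continuous⟩ x₀ e₀ h.symm
  have h2' : ∀ e, c' (π e) = c e := fun e => congrFun h2 e
  have h4' : ∀ x, c (ρ x) = c' x := fun x => congrFun h4 x
  have h5 : (fun e => ρ (π e)) = fun e => e := by
    refine hc.eq_of_comp_eq (ρ.continuous.comp π.continuous) continuous_id ?_ e₀ ?_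
    · funext e
      show c (ρ (π e)) = c e
      rw [h4', h2']
    · show ρ (π e₀) = e₀
      rw [h1, h3]
  have h6 : (fun x => π (ρ x)) = fun x => x := by
    refine hc'.eq_of_comp_eq (π.continuous.comp ρ.continuous) continuous_id ?_ x₀ ?_
    · funext x
      show c' (π (ρ x)) = c' x
      rw [h2', h4']
    · show π (ρ x₀) = x₀
      rw [h3, h1]
  exact ⟨⟨⟨π, ρ, fun e => congrFun h5 e, fun x => congrFun h6 x⟩, π.continuous, ρ.continuous⟩, h2'⟩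

theorem cov_congr {E Z : Type} [TopologicalSpace E] [TopologicalSpace Z] {g : E → Z} {A B : Set Z}
    (hAB : A = B) (h : ∀ e, g e ∈ A) (h' : ∀ e, g e ∈ B)
    (hc : IsCoveringMap fun e => (⟨g e, h e⟩ : A)) : IsCoveringMap fun e => (⟨g e, h' e⟩ : B) := by
  subst hAB
  exact hc

/-! ### The isomorphism `E ≃ F` is biholomorphic -/

section bih
variable {n d : ℕ} {Z F E Γ : Type} [TopologicalSpace Z] [ChartedSpace (Cm n) Z]
  [IsManifold 𝓘(ℂ, Cm n) ω Z] [TopologicalSpace F] [ChartedSpace (Cm d) F]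
  [IsManifold 𝓘(ℂ, Cm d) ω F] [TopologicalSpace E] [Group Γ] [MulAction Γ E]
  [ContinuousConstSMul Γ E] {S : Sheets d E Γ} {Q : E → Z} {i : F → Z}

theorem bih_of (h : QD n S Q) (ihol : ContMDiff 𝓘(ℂ, Cm d) 𝓘(ℂ, Cm n) ω i)
    (imm : ∀ x, Function.Injective (mfderiv 𝓘(ℂ, Cm d) 𝓘(ℂ, Cm n) i x)) {τ : E ≃ₜ F}
    (hτ : ∀ e, i (τ e) = Q e) (K : Subgroup Γ) [K.FiniteIndex] : Bih (sub S K) τ := by
  have hM : IsManifold 𝓘(ℂ, Cm d) 1 F := IsManifold.of_le (n := ω) le_top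
  have hQσ : ∀ j y, Q ((sub S K).σ j y) = Q (S.σ (idx K S.N j).1 y) := fun j y =>
    ((h.Qeq _ _).2 ⟨rep K (idx K S.N j).2, rfl⟩).symm
  have hcont : ∀ j, ∀ z ∈ ball (0 : Cm d) 3, ContinuousAt (fun u => τ ((sub S K).σ j u)) z :=
    fun j z hz => τ.continuous.continuousAt.comp ((sub S K).map_nhds j z hz).le
  refine ⟨fun j z hz e he hs => ?_, fun j z hz e he hs => ?_⟩
  · -- `e ∘ τ ∘ σ j` is holomorphic
    have hopen : ∃ U : Set (Cm d), IsOpen U ∧ z ∈ U ∧ ∀ u ∈ U, u ∈ ball (0 : Cm d) 3 ∧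
        τ ((sub S K).σ j u) ∈ e.source := by
      have h1 : ∀ᶠ u in 𝓝 z, u ∈ ball (0 : Cm d) 3 ∧ τ ((sub S K).σ j u) ∈ e.source :=
        (isOpen_ball.eventually_mem hz).and
          ((hcont j z hz).eventually (e.open_source.mem_nhds hs))
      obtain ⟨U, hU, hUo, hzU⟩ := _root_.mem_nhds_iff.1 h1
      exact ⟨U, hUo, hzU, fun u hu => hU hu⟩
    obtain ⟨U, hUo, hzU, hU⟩ := hopen
    refine MF.analyticAt_of_differentiableOn hUo (fun u hu => ?_) hzU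
    obtain ⟨hu3, hus⟩ := hU u hu
    have h2 : MDifferentiableAt 𝓘(ℂ, Cm d) 𝓘(ℂ, Cm d) (fun y => τ ((sub S K).σ j y)) u := by
      refine mdiff_lift (n := n) (i := i) (w := fun y => Q (S.σ (idx K S.N j).1 y))
        (ihol _) (imm _) (hcont j u hu3) ?_ fun y => ?_
      · exact (h.hol _ u hu3).mdifferentiableAt (by simp)
      · show i (τ ((sub S K).σ j y)) = _
        rw [hτ, hQσ]
    have h3 : MDifferentiableAt 𝓘(ℂ, Cm d) 𝓘(ℂ, Cm d) e (τ ((sub S K).σ j u)) :=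
      mdifferentiableAt_atlas he hus
    exact (HasMFDerivAt.comp u h3.hasMFDerivAt
      h2.hasMFDerivAt).hasFDerivAt.differentiableAt.differentiableWithinAt
  · -- the inverse
    obtain ⟨ζ, h1, h2, h3⟩ := h.coord (idx K S.N j).1 z hz
    have hx₀ : e.symm (e (τ ((sub S K).σ j z))) = τ ((sub S K).σ j z) := e.left_inv hs
    have hi₀ : i (e.symm (e (τ ((sub S K).σ j z)))) = Q (S.σ (idx K S.N j).1 z) := by
      rw [hx₀, hτ, hQσ]
    set v₀ := e (τ ((sub S K).σ j z)) with hv₀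
    have hvt : v₀ ∈ e.target := e.map_source hs
    have hsymm : ContMDiffAt 𝓘(ℂ, Cm d) 𝓘(ℂ, Cm d) ω e.symm v₀ :=
      contMDiffAt_symm_of_mem_maximalAtlas (IsManifold.subset_maximalAtlas he) hvt
    have hie : ContMDiffAt 𝓘(ℂ, Cm d) 𝓘(ℂ, Cm n) ω (fun v => i (e.symm v)) v₀ :=
      ContMDiffAt.comp v₀ (ihol _) hsymm
    have h1' : ContMDiffAt 𝓘(ℂ, Cm n) 𝓘(ℂ, Cm d) ω ζ (i (e.symm v₀)) := by
      rw [hi₀]; exact h1
    have hκ : ContMDiffAt 𝓘(ℂ, Cm d) 𝓘(ℂ, Cm d) ω (fun v => ζ (i (e.symm v))) v₀ :=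
      ContMDiffAt.comp v₀ h1' hie
    have hκ0 : ζ (i (e.symm v₀)) = z := by rw [hi₀, h2]
    refine ⟨fun v => ζ (i (e.symm v)), (contMDiffAt_iff_contDiffAt.1 hκ).analyticAt, hκ0, ?_⟩
    -- the points near `v₀`
    have hε : ContinuousAt (fun v => τ.symm (e.symm v)) v₀ :=
      τ.symm.continuous.continuousAt.comp (e.continuousAt_symm hvt)
    have hε0 : τ.symm (e.symm v₀) = (sub S K).σ j z := by
      rw [hx₀, τ.symm_apply_apply]
    have a1 : ∀ᶠ v in 𝓝 v₀, ∃ u ∈ ball (0 : Cm d) 3, (sub S K).σ j u = τ.symm (e.symm v) := by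
      have b1 : ∀ᶠ ε in 𝓝 (τ.symm (e.symm v₀)), ∃ u ∈ ball (0 : Cm d) 3,
          (sub S K).σ j u = ε := by
        rw [hε0, ← (sub S K).map_nhds j z hz, eventually_map]
        filter_upwards [isOpen_ball.mem_nhds hz] with u hu
        exact ⟨u, hu, rfl⟩
      exact hε.eventually b1
    have a2 : ∀ᶠ v in 𝓝 v₀, ζ (i (e.symm v)) ∈ ball (0 : Cm d) 3 := by
      refine hκ.continuousAt.eventually (p := fun u => u ∈ ball (0 : Cm d) 3) ?_
      show ∀ᶠ u in 𝓝 (ζ (i (e.symm v₀))), u ∈ ball (0 : Cm d) 3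
      rw [hκ0]
      exact isOpen_ball.mem_nhds hz
    have a3 : ∀ᶠ v in 𝓝 v₀, i (e.symm v) ∈ range Q →
        Q (S.σ (idx K S.N j).1 (ζ (i (e.symm v)))) = i (e.symm v) := by
      refine hie.continuousAt.eventually
        (p := fun x => x ∈ range Q → Q (S.σ (idx K S.N j).1 (ζ x)) = x) ?_
      show ∀ᶠ x in 𝓝 (i (e.symm v₀)), x ∈ range Q → Q (S.σ (idx K S.N j).1 (ζ x)) = x
      rw [hi₀]
      exact h3
    filter_upwards [a1, a2, a3] with v c1 c2 c3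
    obtain ⟨u, hu, hue⟩ := c1
    have d1 : i (e.symm v) = Q (S.σ (idx K S.N j).1 u) := by
      rw [← hQσ, hue, ← hτ, τ.apply_symm_apply]
    have d2 := c3 ⟨_, d1.symm⟩
    rw [d1] at d2
    obtain ⟨γ, hγ⟩ := (h.Qeq _ _).1 d2
    rw [← d1] at hγ
    have d3 := (S.inj _ _ c2 u hu γ hγ).2
    show (sub S K).σ j (ζ (i (e.symm v))) = _
    rw [d3, hue]

end bih

/-- **G3** -/
theorem fibK : FibKStmt := by
  intro p Z Y _ _ _ _ _ _ _ _ f S hf hP hAB y hy F _ _ hFs _ i hI hPg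
  obtain ⟨E, Γ, tE, t2, sc, gΓ, aΓ, cΓ, 𝓕, q, M, ht, -⟩ :=
    hAB p 2 Z Y f S (by norm_num) hf hP y hy
  have hyy : (chartAt (Cm p) y).symm (chartAt (Cm p) y y) = y :=
    (chartAt (Cm p) y).left_inv (mem_chart_source _ y)
  have hqd := qd_of_model M ht
  have hFc : CompactSpace F := hI.compact
  have hFm : IsManifold 𝓘(ℂ, Cm 2) ω F := hI.manifold
  set Q := q (chartAt (Cm p) y y) with hQ
  have hri : range Q = f ⁻¹' {y} := by
    rw [hQ, range_of_model M ht, hyy]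
  have hib : ∀ x, i x ∈ f ⁻¹' {y} := fun x => hI.fibre x
  have hQb : ∀ e, Q e ∈ f ⁻¹' {y} := fun e => by
    rw [← hri]
    exact ⟨e, rfl⟩
  have hcov : IsCoveringMap fun x : F => (⟨i x, hib x⟩ : f ⁻¹' {y}) :=
    isCovering hqd hI.hol hI.immersion hri hib
  have hfb : ∀ e, Q e ∈ f ⁻¹' {(chartAt (Cm p) y).symm (chartAt (Cm p) y y)} := M.fib _ ht
  have hcovE : IsCoveringMap fun e : E => (⟨Q e, hQb e⟩ : f ⁻¹' {y}) :=
    cov_congr (A := f ⁻¹' {(chartAt (Cm p) y).symm (chartAt (Cm p) y y)}) (by rw [hyy]) hfb hQb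
      (M.cov _ ht)
  have hLE : LocallyPathConnectedSpace E := locPath (𝓕.at _ ht)
  have hLF : LocallyPathConnectedSpace F := ChartedSpace.locallyPathConnectedSpace (Cm 2) F
  obtain ⟨x₀⟩ : Nonempty F := inferInstance
  have hx₀ : i x₀ ∈ range Q := by
    rw [hri]
    exact hib x₀
  obtain ⟨e₀, he₀⟩ := hx₀
  obtain ⟨τ, hτ⟩ := exists_homeo hcovE hcov (e₀ := e₀) (x₀ := x₀) (Subtype.ext he₀.symm)
  have hτ' : ∀ e, i (τ e) = Q e := fun e => congrArg Subtype.val (hτ e)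
  -- `Γ` is finite
  have hfinite : ((fun x : F => (⟨i x, hib x⟩ : f ⁻¹' {y})) ⁻¹' {⟨Q e₀, hQb e₀⟩}).Finite := by
    have h1 : IsClosed ((fun x : F => (⟨i x, hib x⟩ : f ⁻¹' {y})) ⁻¹' {⟨Q e₀, hQb e₀⟩}) :=
      isClosed_singleton.preimage hcov.continuous
    have h2 : DiscreteTopology
        ((fun x : F => (⟨i x, hib x⟩ : f ⁻¹' {y})) ⁻¹' {⟨Q e₀, hQb e₀⟩}) :=
      (hcov _).discreteTopology_fiber
    exact h1.isCompact.finite ⟨h2⟩
  have hΓ : Finite Γ := by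
    have h3 : Finite ((fun x : F => (⟨i x, hib x⟩ : f ⁻¹' {y})) ⁻¹' {⟨Q e₀, hQb e₀⟩}) := hfinite
    refine Finite.of_injective (fun γ : Γ => (⟨τ (γ • e₀), ?_⟩ :
      (fun x : F => (⟨i x, hib x⟩ : f ⁻¹' {y})) ⁻¹' {⟨Q e₀, hQb e₀⟩})) ?_
    · show (⟨i (τ (γ • e₀)), hib _⟩ : f ⁻¹' {y}) = ⟨Q e₀, hQb e₀⟩
      refine Subtype.ext ?_
      show i (τ (γ • e₀)) = Q e₀
      rw [hτ']
      exact ((hqd.Qeq _ _).2 ⟨γ, rfl⟩).symm
    · intro γ γ' hγ
      have h4 : τ (γ • e₀) = τ (γ' • e₀) := congrArg Subtype.val hγ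
      have h5 : γ • e₀ = γ' • e₀ := τ.injective h4
      have h6 : (γ'⁻¹ * γ) • e₀ = e₀ := by rw [mul_smul, h5, inv_smul_smul]
      have h7 := Sh.free (𝓕.at _ ht) h6
      rw [inv_mul_eq_one] at h7
      exact h7.symm
  have hfin : (⊥ : Subgroup Γ).FiniteIndex := inferInstance
  have hB : Bih (sub (𝓕.at _ ht) (⊥ : Subgroup Γ)) τ :=
    bih_of hqd hI.hol hI.immersion hτ' ⊥
  exact ⟨Nat.card Γ, Nat.card_pos, E, Γ, tE, t2, sc, gΓ, aΓ, cΓ, hfin, 𝓕, q, chartAt (Cm p) y, _, ht,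
    M, hyy, rfl, hB.h20 hPg⟩

end Vale.Agent.P281.H22.TS
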