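import Vale.Agent.P281.H64.TS.Spec2
import Vale.Agent.P281.MF.Hol

/-!
# P281, project T-S (helper22), block G3: forms of top degree on `E` and on a biholomorphic
manifold `F`
-/

open Set Filter Metric Vale.Agent.P272.K
open scoped Topology ContDiff Manifold ComplexConjugate ComplexOrder

set_option linter.unusedSectionVars false

noncomputable section

namespace Vale.Agent.P281.H22.TS

open Vale.Agent.P281.H64.TK Vale.Agent.P281.H64.TK.TS

/-! ### The Jacobian matrix -/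

section jac
variable {d : ℕ}

/-- chain rule for `jac` -/
theorem jac_comp {θ η : Cm d → Cm d} {z w : Cm d} (hw : θ z = w) (hη : DifferentiableAt ℂ η w)
    (hθ : DifferentiableAt ℂ θ z) :
    H64.TK.jac (fun u => η (θ u)) z = H64.TK.jac η w * H64.TK.jac θ z := by
  subst hw
  have h1 : fderiv ℂ (fun u => η (θ u)) z = (fderiv ℂ η (θ z)).comp (fderiv ℂ θ z) :=
    (hη.hasFDerivAt.comp z hθ.hasFDerivAt).fderiv
  have h2 : ∀ (f : Cm d → Cm d) (x : Cm d), H64.TK.jac f x =
      LinearMap.toMatrix' (fderiv ℂ f x : Cm d →ₗ[ℂ] Cm d) := by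
    intro f x
    rfl
  rw [h2, h2, h2, ← LinearMap.toMatrix'_comp, h1]
  rfl

theorem jac_id (z : Cm d) : H64.TK.jac (fun u : Cm d => u) z = 1 := by
  ext i j
  simp only [H64.TK.jac, Matrix.of_apply, fderiv_fun_id, ContinuousLinearMap.coe_id', id_eq,
    Matrix.one_apply, Pi.single_apply]

theorem jac_congr {θ η : Cm d → Cm d} {z : Cm d} (h : θ =ᶠ[𝓝 z] η) :
    H64.TK.jac θ z = H64.TK.jac η z := by
  unfold H64.TK.jac
  rw [h.fderiv_eq]

theorem det_analyticAt {X : Type} [NormedAddCommGroup X] [NormedSpace ℂ X]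
    {M : X → Matrix (Fin d) (Fin d) ℂ} {x : X} (h : ∀ i j, AnalyticAt ℂ (fun x => M x i j) x) :
    AnalyticAt ℂ (fun x => (M x).det) x := by
  have h1 : (fun x => (M x).det) = fun x => ∑ σ : Equiv.Perm (Fin d),
      ((Equiv.Perm.sign σ : ℤ) : ℂ) * ∏ i, M x (σ i) i := by
    funext x
    rw [Matrix.det_apply']
  rw [h1]
  refine Finset.analyticAt_fun_sum _ fun σ _ => ?_
  exact analyticAt_const.mul (Finset.analyticAt_fun_prod _ fun i _ => h _ _)

theorem jac_analyticAt {v : Cm d → Cm d} {z : Cm d} (hv : AnalyticAt ℂ v z) :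
    AnalyticAt ℂ (fun y => (H64.TK.jac v y).det) z := by
  refine det_analyticAt (M := fun y => H64.TK.jac v y) fun l k => ?_
  exact (((ContinuousLinearMap.proj (R := ℂ) (φ := fun _ : Fin d => ℂ) l).comp
    (ContinuousLinearMap.apply ℂ (Cm d) (Pi.single k (1 : ℂ) : Cm d))).analyticAt _).comp hv.fderiv

end jac

/-! ### Biholomorphic maps from sheets to a manifold -/

section bih
variable {d : ℕ} {E K F : Type} [TopologicalSpace E] [Group K] [MulAction K E]
  [TopologicalSpace F] [ChartedSpace (Cm d) F]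

/-- `τ : E ≃ₜ F` is biholomorphic. -/
structure Bih (S : Sheets d E K) (τ : E ≃ₜ F) : Prop where
  fwd : ∀ j, ∀ z ∈ ball (0 : Cm d) 3, ∀ e ∈ atlas (Cm d) F, τ (S.σ j z) ∈ e.source →
    AnalyticAt ℂ (fun u => e (τ (S.σ j u))) z
  bwd : ∀ j, ∀ z ∈ ball (0 : Cm d) 3, ∀ e ∈ atlas (Cm d) F, τ (S.σ j z) ∈ e.source →
    ∃ κ : Cm d → Cm d, AnalyticAt ℂ κ (e (τ (S.σ j z))) ∧ κ (e (τ (S.σ j z))) = z ∧
      ∀ᶠ v in 𝓝 (e (τ (S.σ j z))), S.σ j (κ v) = τ.symm (e.symm v)

variable {S : Sheets d E K} {τ : E ≃ₜ F}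

/-- the Jacobian determinant of `e ∘ τ ∘ σ j` -/
def dj (S : Sheets d E K) (τ : E ≃ₜ F) (e : Chart d F) (j : Fin S.N) (z : Cm d) : ℂ :=
  (H64.TK.jac (fun u => e (τ (S.σ j u))) z).det

theorem left_ev {j : Fin S.N} {z : Cm d} {e : Chart d F} (hs : τ (S.σ j z) ∈ e.source)
    {κ : Cm d → Cm d} (h3 : ∀ᶠ v in 𝓝 (e (τ (S.σ j z))), S.σ j (κ v) = τ.symm (e.symm v)) :
    ∀ᶠ v in 𝓝 (e (τ (S.σ j z))), e (τ (S.σ j (κ v))) = v := by
  filter_upwards [h3, e.open_target.mem_nhds (e.map_source hs)] with v hv hvt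
  rw [hv, τ.apply_symm_apply, e.right_inv hvt]

theorem Bih.dj_ne (h : Bih S τ) {j : Fin S.N} {z : Cm d} (hz : z ∈ ball (0 : Cm d) 3)
    {e : Chart d F} (he : e ∈ atlas (Cm d) F) (hs : τ (S.σ j z) ∈ e.source) :
    dj S τ e j z ≠ 0 := by
  obtain ⟨κ, h1, h2, h3⟩ := h.bwd j z hz e he hs
  have h4 := left_ev hs h3
  have h5 : H64.TK.jac (fun v => e (τ (S.σ j (κ v)))) (e (τ (S.σ j z))) =
      H64.TK.jac (fun u => e (τ (S.σ j u))) z * H64.TK.jac κ (e (τ (S.σ j z))) :=
    jac_comp (η := fun u => e (τ (S.σ j u))) h2 (h.fwd j z hz e he hs).differentiableAt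
      h1.differentiableAt
  have h6 : H64.TK.jac (fun v => e (τ (S.σ j (κ v)))) (e (τ (S.σ j z))) = 1 := by
    rw [jac_congr (η := fun v => v) h4, jac_id]
  rw [h6] at h5
  have h7 := congrArg Matrix.det h5
  rw [Matrix.det_one, Matrix.det_mul] at h7
  intro h8
  have h9 : (H64.TK.jac (fun u => e (τ (S.σ j u))) z).det = 0 := h8
  rw [h9, zero_mul] at h7
  exact one_ne_zero h7

/-- change of the chart -/
theorem Bih.dj_chart (h : Bih S τ) {j : Fin S.N} {z : Cm d} (hz : z ∈ ball (0 : Cm d) 3)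
    {e e' : Chart d F} (he : e ∈ atlas (Cm d) F) (hs : τ (S.σ j z) ∈ e.source)
    (he' : e' ∈ atlas (Cm d) F) (hs' : τ (S.σ j z) ∈ e'.source) :
    dj S τ e' j z = (H64.TK.jac (fun u => e' (e.symm u)) (e (τ (S.σ j z)))).det * dj S τ e j z := by
  obtain ⟨κ, h1, h2, h3⟩ := h.bwd j z hz e he hs
  have h4 : (fun u => e' (e.symm u)) =ᶠ[𝓝 (e (τ (S.σ j z)))] fun v => e' (τ (S.σ j (κ v))) := by
    filter_upwards [h3] with v hv
    rw [hv, τ.apply_symm_apply]
  have h5 : AnalyticAt ℂ (fun u => e' (e.symm u)) (e (τ (S.σ j z))) := by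
    refine AnalyticAt.congr ?_ h4.symm
    have h6 : AnalyticAt ℂ (fun u => e' (τ (S.σ j u))) (κ (e (τ (S.σ j z)))) := by
      rw [h2]
      exact h.fwd j z hz e' he' hs'
    exact h6.comp h1
  have h7 : (fun u => e' (τ (S.σ j u))) =ᶠ[𝓝 z] fun u => e' (e.symm (e (τ (S.σ j u)))) := by
    have h8 : ContinuousAt (fun u => τ (S.σ j u)) z :=
      τ.continuous.continuousAt.comp (S.map_nhds j z hz).le
    filter_upwards [h8.eventually (e.open_source.mem_nhds hs)] with u hu
    rw [e.left_inv hu]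
  show (H64.TK.jac (fun u => e' (τ (S.σ j u))) z).det = _
  rw [jac_congr h7, jac_comp (η := fun u => e' (e.symm u)) rfl h5.differentiableAt
    (h.fwd j z hz e he hs).differentiableAt, Matrix.det_mul]
  rfl

/-- change of the sheet -/
theorem Bih.dj_sheet (h : Bih S τ) {i j : Fin S.N} {z z' : Cm d}
    (hz' : z' ∈ ball (0 : Cm d) 3) {e : Chart d F} (he : e ∈ atlas (Cm d) F)
    (hs : τ (S.σ j z') ∈ e.source) {θ : Cm d → Cm d} (h1 : AnalyticAt ℂ θ z) (h2 : θ z = z')
    (h3 : ∀ᶠ u in 𝓝 z, S.σ i u = S.σ j (θ u)) :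
    dj S τ e i z = dj S τ e j z' * (H64.TK.jac θ z).det := by
  have h4 : (fun u => e (τ (S.σ i u))) =ᶠ[𝓝 z] fun u => e (τ (S.σ j (θ u))) := by
    filter_upwards [h3] with u hu
    rw [hu]
  show (H64.TK.jac (fun u => e (τ (S.σ i u))) z).det = _
  rw [jac_congr h4, jac_comp (η := fun u => e (τ (S.σ j u))) h2
    (h.fwd j z' hz' e he hs).differentiableAt h1.differentiableAt, Matrix.det_mul]
  rfl

theorem Bih.dj_analytic (h : Bih S τ) {j : Fin S.N} {z : Cm d} (hz : z ∈ ball (0 : Cm d) 3)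
    {e : Chart d F} (he : e ∈ atlas (Cm d) F) (hs : τ (S.σ j z) ∈ e.source) :
    AnalyticAt ℂ (dj S τ e j) z :=
  jac_analyticAt (h.fwd j z hz e he hs)

/-! ### Forms: from `F` to `E` -/

/-- the pull-back of a form to `E` -/
def up (S : Sheets d E K) (τ : E ≃ₜ F) (s : Chart d F → Cm d → ℂ) (j : Fin S.N) (z : Cm d) : ℂ :=
  s (chartAt (Cm d) (τ (S.σ j z))) (chartAt (Cm d) (τ (S.σ j z)) (τ (S.σ j z))) *
    dj S τ (chartAt (Cm d) (τ (S.σ j z))) j z

theorem Bih.up_eq (h : Bih S τ) {s : Chart d F → Cm d → ℂ} (hc : IsCan s) {j : Fin S.N} {z : Cm d}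
    (hz : z ∈ ball (0 : Cm d) 3) {e : Chart d F} (he : e ∈ atlas (Cm d) F)
    (hs : τ (S.σ j z) ∈ e.source) :
    up S τ s j z = s e (e (τ (S.σ j z))) * dj S τ e j z := by
  have h0 : chartAt (Cm d) (τ (S.σ j z)) ∈ atlas (Cm d) F := chart_mem_atlas _ _
  have hs0 : τ (S.σ j z) ∈ (chartAt (Cm d) (τ (S.σ j z))).source := mem_chart_source _ _
  show s _ _ * dj S τ _ j z = _
  rw [hc.change _ h0 e he _ ⟨hs0, hs⟩, h.dj_chart hz h0 hs0 he hs, mul_assoc]

theorem Bih.up_hol (h : Bih S τ) {s : Chart d F → Cm d → ℂ} (hc : IsCan s) : HolD S (up S τ s) := by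
  refine ⟨fun j z hz => ?_, fun i j z hz z' hz' θ h1 h2 h3 => ?_⟩
  · set e := chartAt (Cm d) (τ (S.σ j z)) with hedef
    have he : e ∈ atlas (Cm d) F := chart_mem_atlas _ _
    have hs : τ (S.σ j z) ∈ e.source := mem_chart_source _ _
    have h8 : ContinuousAt (fun u => τ (S.σ j u)) z :=
      τ.continuous.continuousAt.comp (S.map_nhds j z hz).le
    have h9 : up S τ s j =ᶠ[𝓝 z] fun u => s e (e (τ (S.σ j u))) * dj S τ e j u := by
      filter_upwards [h8.eventually (e.open_source.mem_nhds hs), isOpen_ball.mem_nhds hz]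
        with u hu hu3
      exact h.up_eq hc hu3 he hu
    have h10 : DifferentiableAt ℂ (fun u => s e (e (τ (S.σ j u)))) z := by
      have h11 : DifferentiableAt ℂ (s e) (e (τ (S.σ j z))) :=
        (hc.hol e he).differentiableAt (e.open_target.mem_nhds (e.map_source hs))
      exact DifferentiableAt.comp (g := s e) (f := fun u => e (τ (S.σ j u))) z h11
        (h.fwd j z hz e he hs).differentiableAt
    exact ((h10.mul (h.dj_analytic hz he hs).differentiableAt).congr_of_eventuallyEq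
      h9).differentiableWithinAt
  · set e := chartAt (Cm d) (τ (S.σ j z')) with hedef
    have he : e ∈ atlas (Cm d) F := chart_mem_atlas _ _
    have hs' : τ (S.σ j z') ∈ e.source := mem_chart_source _ _
    have h4 : S.σ i z = S.σ j z' := by
      have h5 := h3.self_of_nhds
      rw [h2] at h5
      exact h5
    have hs : τ (S.σ i z) ∈ e.source := by rw [h4]; exact hs'
    rw [h.up_eq hc hz he hs, h.up_eq hc hz' he hs', h.dj_sheet hz' he hs' h1 h2 h3, h4, mul_assoc]

/-! ### Forms: from `E` to `F` -/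

variable [Subsingleton K]

theorem exists_sheet (S : Sheets d E K) (ε : E) :
    ∃ q : Fin S.N × Cm d, ‖q.2‖ < 1 ∧ S.σ q.1 q.2 = ε := by
  obtain ⟨γ, j, z, hz, h⟩ := S.cover ε
  rw [Subsingleton.elim γ 1, one_smul] at h
  exact ⟨(j, z), hz, h⟩

/-- a sheet and a point of the ball -/
def pt (S : Sheets d E K) (ε : E) : Fin S.N × Cm d := (exists_sheet S ε).choose

theorem pt_mem (S : Sheets d E K) (ε : E) : (pt S ε).2 ∈ ball (0 : Cm d) 3 := by
  rw [mem_ball_zero_iff]
  exact (exists_sheet S ε).choose_spec.1.trans (by norm_num)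

theorem pt_spec (S : Sheets d E K) (ε : E) : S.σ (pt S ε).1 (pt S ε).2 = ε :=
  (exists_sheet S ε).choose_spec.2

/-- the form on `F` given by a form on `E` -/
def down (S : Sheets d E K) (τ : E ≃ₜ F) (s : Fin S.N → Cm d → ℂ) (e : Chart d F) (v : Cm d) : ℂ :=
  s (pt S (τ.symm (e.symm v))).1 (pt S (τ.symm (e.symm v))).2 /
    dj S τ e (pt S (τ.symm (e.symm v))).1 (pt S (τ.symm (e.symm v))).2

theorem Bih.down_eq (h : Bih S τ) {s : Fin S.N → Cm d → ℂ} (hc : HolD S s) {j : Fin S.N} {z : Cm d}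
    (hz : z ∈ ball (0 : Cm d) 3) {e : Chart d F} (he : e ∈ atlas (Cm d) F)
    (hs : τ (S.σ j z) ∈ e.source) :
    down S τ s e (e (τ (S.σ j z))) = s j z / dj S τ e j z := by
  unfold down
  rw [e.left_inv hs, τ.symm_apply_apply]
  set q := pt S (S.σ j z) with hq
  have hq3 : q.2 ∈ ball (0 : Cm d) 3 := pt_mem S _
  have hqs : S.σ q.1 q.2 = S.σ j z := pt_spec S _
  obtain ⟨θ, h1, h2, h3⟩ := S.hol j q.1 z hz q.2 hq3 1 (by rw [one_smul, hqs])
  simp only [one_smul] at h3
  have hs' : τ (S.σ q.1 q.2) ∈ e.source := by rw [hqs]; exact hs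
  have h4 := h.dj_sheet hq3 he hs' h1 h2 h3
  have h5 := hc.change j q.1 z hz q.2 hq3 θ h1 h2 h3
  have h6 : (H64.TK.jac θ z).det ≠ 0 := by
    intro h7
    rw [h7, mul_zero] at h4
    exact h.dj_ne hz he hs h4
  rw [h4, h5, mul_div_mul_right _ _ h6]

theorem Bih.down_can (h : Bih S τ) {s : Fin S.N → Cm d → ℂ} (hc : HolD S s) :
    IsCan (down S τ s) := by
  refine ⟨fun e he v hv => ?_, fun e he e' he' x hx => ?_⟩
  · set ε := τ.symm (e.symm v) with hε
    have hz := pt_mem S ε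
    have hσ := pt_spec S ε
    have hx : τ (S.σ (pt S ε).1 (pt S ε).2) = e.symm v := by
      rw [hσ, hε, τ.apply_symm_apply]
    have hs : τ (S.σ (pt S ε).1 (pt S ε).2) ∈ e.source := by rw [hx]; exact e.map_target hv
    have hev : e (τ (S.σ (pt S ε).1 (pt S ε).2)) = v := by rw [hx, e.right_inv hv]
    obtain ⟨κ, h1, h2, h3⟩ := h.bwd _ _ hz e he hs
    have h4 := left_ev hs h3
    rw [hev] at h1 h2 h3 h4
    have h5 : ∀ᶠ v' in 𝓝 v, κ v' ∈ ball (0 : Cm d) 3 := by
      refine h1.continuousAt.eventually (p := fun y => y ∈ ball (0 : Cm d) 3) ?_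
      rw [h2]
      exact isOpen_ball.mem_nhds hz
    have h6 : down S τ s e =ᶠ[𝓝 v] fun v' => s (pt S ε).1 (κ v') /
        dj S τ e (pt S ε).1 (κ v') := by
      filter_upwards [h3, h4, h5, e.open_target.mem_nhds hv] with v' a3 a4 a5 a6
      have a7 : τ (S.σ (pt S ε).1 (κ v')) ∈ e.source := by
        rw [a3, τ.apply_symm_apply]
        exact e.map_target a6
      have a8 := h.down_eq hc a5 he a7
      rw [a4] at a8
      exact a8
    have h7 : DifferentiableAt ℂ (fun v' => s (pt S ε).1 (κ v')) v := by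
      have h8 : DifferentiableAt ℂ (s (pt S ε).1) (κ v) := by
        rw [h2]
        exact (hc.hol _).differentiableAt (isOpen_ball.mem_nhds hz)
      exact DifferentiableAt.comp (g := s (pt S ε).1) (f := κ) v h8 h1.differentiableAt
    have h9 : DifferentiableAt ℂ (fun v' => dj S τ e (pt S ε).1 (κ v')) v := by
      have h8 : DifferentiableAt ℂ (dj S τ e (pt S ε).1) (κ v) := by
        rw [h2]
        exact (h.dj_analytic hz he hs).differentiableAt
      exact DifferentiableAt.comp (g := dj S τ e (pt S ε).1) (f := κ) v h8 h1.differentiableAt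
    have h10 : dj S τ e (pt S ε).1 (κ v) ≠ 0 := by
      rw [h2]
      exact h.dj_ne hz he hs
    have h11 : DifferentiableAt ℂ (fun v' => s (pt S ε).1 (κ v') *
        (dj S τ e (pt S ε).1 (κ v'))⁻¹) v := h7.mul (h9.fun_inv h10)
    simp only [div_eq_mul_inv] at h6
    exact (h11.congr_of_eventuallyEq h6).differentiableWithinAt
  · set ε := τ.symm x with hε
    have hz := pt_mem S ε
    have hσ := pt_spec S ε
    have hx' : τ (S.σ (pt S ε).1 (pt S ε).2) = x := by
      rw [hσ, hε, τ.apply_symm_apply]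
    have hs : τ (S.σ (pt S ε).1 (pt S ε).2) ∈ e.source := by rw [hx']; exact hx.1
    have hs' : τ (S.σ (pt S ε).1 (pt S ε).2) ∈ e'.source := by rw [hx']; exact hx.2
    have h1 := h.down_eq hc hz he hs
    have h2 := h.down_eq hc hz he' hs'
    have h3 := h.dj_chart hz he hs he' hs'
    have h4 := h.dj_ne hz he hs
    have h5 := h.dj_ne hz he' hs'
    rw [hx'] at h1 h2 h3
    rw [h1, h2]
    have h6 : (H64.TK.jac (fun u => e' (e.symm u)) (e x)).det ≠ 0 := by
      intro h7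
      rw [h7, zero_mul] at h3
      exact h5 h3
    rw [h3]
    field_simp

/-- **Forms of top degree on `E` and `F`.** -/
theorem Bih.h20 (h : Bih S τ) (hF : PgOne d F) : H20One S := by
  obtain ⟨s, hs, ⟨e, he, u, hu, hne⟩, huni⟩ := hF
  refine ⟨up S τ s, h.up_hol hs, ?_, ?_⟩
  · set ε := τ.symm (e.symm u) with hε
    have hz := pt_mem S ε
    have hσ := pt_spec S ε
    have hx : τ (S.σ (pt S ε).1 (pt S ε).2) = e.symm u := by
      rw [hσ, hε, τ.apply_symm_apply]
    have hes : τ (S.σ (pt S ε).1 (pt S ε).2) ∈ e.source := by rw [hx]; exact e.map_target hu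
    refine ⟨(pt S ε).1, (pt S ε).2, hz, ?_⟩
    rw [h.up_eq hs hz he hes]
    refine mul_ne_zero ?_ (h.dj_ne hz he hes)
    rw [hx, e.right_inv hu]
    exact hne
  · intro s' hs'
    obtain ⟨c, hc⟩ := huni (down S τ s') (h.down_can hs')
    refine ⟨c, fun j z hz => ?_⟩
    set e := chartAt (Cm d) (τ (S.σ j z)) with hedef
    have he : e ∈ atlas (Cm d) F := chart_mem_atlas _ _
    have hes : τ (S.σ j z) ∈ e.source := mem_chart_source _ _
    have h1 := hc e he _ (e.map_source hes)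
    rw [h.down_eq hs' hz he hes, div_eq_iff (h.dj_ne hz he hes)] at h1
    rw [h.up_eq hs hz he hes, h1, mul_assoc]

end bih

end Vale.Agent.P281.H22.TS
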